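import Vale.Agent.P352X.R.BP.A
import Vale.Agent.P352Z.R.CONK.Kp
import Vale.Agent.P352Z.R.CONK.Tri
import Vale.Agent.P352Z.R.GRP.C

/-!
# P352Z, row BP: transverse wedges and commutation with far parts of the plane
-/

set_option linter.all false

open MeasureTheory Filter Topology
open scoped SchwartzMap ComplexConjugate ContDiff

namespace Vale.Agent.P352X.ZZ.BPa

export Vale.Agent.P352X.BPa (nv md_nv null_nv md_nvv Wt mem_Wt jr_mem jr_Wt Bx Fr est sep
  dc_shift ex_dc dc_Bx)

open Vale.Agent.P352 Vale.Agent.P352.GF Vale.Agent.P352.BW Vale.Agent.P352.H246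
open Vale.Agent.P352.H496 Vale.Agent.P352.H755
open Vale.Agent.P132 (jconj)
open UniformSpace (Completion)

noncomputable section

/-! ### geometry -/

/-! ### commutation -/

variable {D : Type*} [NormedAddCommGroup D] [InnerProductSpace ℂ D] {c : Ctx D}
  {X Y Z : Completion D →L[ℂ] Completion D} {R : ℝ} {w w' v v' : Completion D} {O : Set V}

section lin

open Vale.Agent.P352X.Ap

variable {f f' : Fn} {g g' : P3 → ℝ} {φ : ℝ → ℝ}

variable (c) in
/-- `f ↦ T(h, k)(f) Ω` -/
def TL (h k : V) : Sch →L[ℂ] Completion D :=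
  ∑ m, ∑ n, ((eta m * h m * (eta n * k n) : ℝ) : ℂ) •
    (Completion.toComplL ∘L Grp.fC (Ev.fld c m n) c.Q.vac)

theorem TL_apply (h k : V) (F : Sch) : TL c h k F = c.Tv (hk h k (ev F)) := by
  rw [Ev.Tv_hk c h k (test_ev F)]
  simp only [TL, ContinuousLinearMap.sum_apply, ContinuousLinearMap.smul_apply]
  rfl

theorem Tv_sch (hf : IsTest f) (h k : V) : c.Tv (hk h k f) = TL c h k (sch f) := by
  rw [TL_apply, ev_sch hf]

theorem Tv_add (hf : IsTest f) (hf' : IsTest f') (h k : V) :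
    c.Tv (hk h k fun z => f z + f' z) = c.Tv (hk h k f) + c.Tv (hk h k f') := by
  rw [Tv_sch hf, Tv_sch hf', Tv_sch (sw_add hf hf'), Ap.sch_add hf hf', map_add]

theorem Tv_cmul (a : ℂ) (hf : IsTest f) (h k : V) :
    c.Tv (hk h k fun z => a * f z) = a • c.Tv (hk h k f) := by
  rw [Tv_sch hf, Tv_sch (sw_cmul a hf), Ap.sch_cmul a hf, map_smul]

theorem Tv_zero (h k : V) : c.Tv (hk h k fun _ => 0) = 0 := by
  rw [Tv_sch sw_zero, Ap.sch_zero, map_zero]

variable (c) in
/-- `T(h, k)(g φ) Ω` -/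
def TQ (h k : V) (g : P3 → ℝ) (φ : ℝ → ℝ) : Completion D := c.Tv (hk h k (pr g φ))

theorem TP_sch (hg : Tst g) (hφ : Tst φ) (h k : V) : TQ c h k g φ = TL c h k (sch (pr g φ)) :=
  Tv_sch (test_pr hg hφ) h k

theorem TP_add_g (hg : Tst g) (hg' : Tst g') (hφ : Tst φ) (h k : V) :
    TQ c h k (fun y => g y + g' y) φ = TQ c h k g φ + TQ c h k g' φ := by
  rw [TQ, TQ, TQ, ← Tv_add (test_pr hg hφ) (test_pr hg' hφ)]
  congr 2
  funext z
  simp [pr, add_mul]

theorem TP_mul_g (a : ℝ) (hg : Tst g) (hφ : Tst φ) (h k : V) :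
    TQ c h k (fun y => a * g y) φ = (a : ℂ) • TQ c h k g φ := by
  rw [TQ, TQ, ← Tv_cmul a (test_pr hg hφ)]
  congr 2
  funext z
  simp [pr, mul_assoc]

theorem TP_sub_g (hg : Tst g) (hg' : Tst g') (hφ : Tst φ) (h k : V) :
    TQ c h k (fun y => g y - g' y) φ = TQ c h k g φ - TQ c h k g' φ := by
  rw [eq_sub_iff_add_eq, ← TP_add_g (cs_sub hg hg') hg' hφ]
  simp only [sub_add_cancel]

theorem star_Y (X : Completion D →L[ℂ] Completion D) :
    star (jconj c.J X) c.Om = c.J (star X c.Om) := by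
  rw [jconj_star c.J c.J_J, P132.jconj_apply, c.J_Om]

lemma J_ug (hj : JC c) {L L' : Ix → V} {a a' : V} (hL : IsLor L) (ha : jr a = a')
    (e : ∀ z, sim 1 L' 0 (jr z) = jr (sim 1 L 0 z)) (z : Completion D) :
    c.J (Ug c.Q 1 L a z) = Ug c.Q 1 L' a' (c.J z) := by
  have b : ∀ (L : Ix → V) m, sim 1 L 0 (GF.one m) = L m := fun L m => funext fun n => by
    simp [sim, GF.one, bas]
  have : jL L = L' := funext fun m => by
    rw [← b (jL L), ← b L', ← jr_jr (GF.one m), e, ← (hj.lor L hL).2,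
      show jr 0 = 0 from jrL.map_zero]
  rw [hj.ug _ _ _ _ one_pos hL, this, ha]

lemma pd_jr (n : Ix) (f : Fn) (z : V) : pd n (fun z => f (jr z)) z = sj n * pd n f (jr z) := by
  have e : ∀ t : ℝ, jr (fun m => z m + bas n t m) = fun m => jr z m + bas n (sj n * t) m :=
    fun t => funext fun m => by
      simp only [jr_apply, bas]
      split_ifs with h
      · rw [h, mul_add]
      · rw [add_zero, add_zero]
  simp only [pd, e]
  have := deriv_comp_mul_left (sj n) (fun t => f fun m => jr z m + bas n t m) 0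
  rw [mul_zero] at this
  exact this

/-- the mirror image of the leg -/
lemma J_Th (hj : JC c) (hf : IsTest f) (hf' : IsTest fun z => f (jr z)) :
    c.J (c.Th f) = -c.Th (bar fun z => f (jr z)) := by
  have s2 : ∀ n, (sj n : ℂ) * sj n = 1 := fun n => by fin_cases n <;> simp [sj]
  have e : ∀ n, (bar fun z => pd n f (jr z)) =
      fun x => (sj n : ℂ) * pd n (bar fun z => f (jr z)) x := fun n => funext fun x => by
    rw [← Ev.bar_pd]
    simp only [bar, pd_jr, star_mul', Complex.star_def, Complex.conj_ofReal, ← mul_assoc, s2,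
      one_mul]
  rw [Ev.Th_eq c hf, Ev.Th_eq c (test_bar hf')]
  simp only [map_sum, map_smulₛₗ, fun m n => hj.one m n _ (test_pd n hf), e,
    fun m n a => Ev.T_smul c m n a (test_pd n (test_bar hf')), Complex.conj_ofReal,
    Completion.coe_smul, smul_smul, ← Finset.sum_neg_distrib, ← neg_smul]
  refine Finset.sum_congr rfl fun m _ => Finset.sum_congr rfl fun n _ => ?_
  congr 1
  have h : (va m : ℂ) * sj m = -va m := by fin_cases m <;> simp [va, sj]
  push_cast
  linear_combination (eta m * va m * sj m : ℂ) * s2 n + (eta m : ℂ) * h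

end lin

variable (c) in
/-- localised in all transverse wedges that contain the box -/
def Loc (R : ℝ) (Z : Completion D →L[ℂ] Completion D) : Prop :=
  ∀ w p, w ≠ 0 → Bx R ⊆ Wt w p → Z ∈ c.N (Wt w p)

lemma Loc.of (hX : X ∈ c.N O) (h : O ⊆ Bx R) : Loc c R X :=
  fun _ _ _ k => c.N_mono (h.trans k) X hX

lemma Loc.mul (h : Loc c R X) (h' : Loc c R Y) : Loc c R (X * Y) :=
  fun w p a b => mul_mem (h w p a b) (h' w p a b)

lemma Loc.J (j : JC c) (h : Loc c R X) : Loc c R (jconj c.J X) := fun w p a b =>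
  jr_Wt w p ▸ j.alg _ _ _ (null_nv _) (null_nv _) (md_nvv a) X (h w p a b)

variable (c) in
/-- `T_aa` commutes in the region `O` with the operator that the pair stands for -/
def Com (w w' : Completion D) (O : Set V) : Prop :=
  ∀ h, In O h → inner ℂ (c.Tv (hk va va (bar h))) w = inner ℂ w' (c.Tv (hk va va h))

lemma Com.sub (h : Com c w w' O) (h' : Com c v v' O) : Com c (w - v) (w' - v') O := fun f hf => by
  rw [inner_sub_left, inner_sub_right, h f hf, h' f hf]

lemma Com.lim (h : ∀ ε > 0, ∃ v v', Com c v v' O ∧ ‖w - v‖ ≤ ε ∧ ‖w' - v'‖ ≤ ε) :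
    Com c w w' O := fun f hf => by
  refine eq_of_sub_eq_zero (norm_le_zero_iff.1 (le_of_forall_pos_le_add fun η hη => ?_))
  set M := ‖c.Tv (hk va va (bar f))‖ + ‖c.Tv (hk va va f)‖ + 1 with hM
  have M0 : 0 < M := by positivity
  obtain ⟨v, v', a, b, d⟩ := h (η / M) (by positivity)
  have e : inner ℂ (c.Tv (hk va va (bar f))) w - inner ℂ w' (c.Tv (hk va va f)) =
      inner ℂ (c.Tv (hk va va (bar f))) (w - v) - inner ℂ (w' - v') (c.Tv (hk va va f)) := by
    rw [inner_sub_left, inner_sub_right, a f hf]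
    ring
  rw [e, zero_add, ← div_mul_cancel₀ η M0.ne']
  refine (norm_sub_le _ _).trans ((add_le_add (norm_inner_le_norm _ _)
    (norm_inner_le_norm _ _)).trans ?_)
  have := div_pos hη M0
  nlinarith [mul_le_mul_of_nonneg_left b (norm_nonneg (c.Tv (hk va va (bar f)))),
    mul_le_mul_of_nonneg_left d (norm_nonneg (c.Tv (hk va va f)))]

theorem Loc.com (g : GRP c) (j : JC c) (hR : 0 < R) (h : Loc c R Z) :
    Com c (Z c.Om) (star Z c.Om) (Fr R) := fun f hf => by
  refine Ap.in_ind (P := fun f => inner ℂ (c.Tv (hk va va (bar f))) (Z c.Om) =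
    inner ℂ (star Z c.Om) (c.Tv (hk va va f))) ?_ (fun f f' a b d e => ?_) (fun z hz => ?_) hf
  · have : bar (fun _ => 0) = fun _ => 0 := funext fun _ => star_zero _
    rw [this, Tv_zero, inner_zero_left, inner_zero_right]
  · have : bar (fun x => f x + f' x) = fun x => bar f x + bar f' x := funext fun _ => star_add _ _
    rw [this, Tv_add (Ap.test_bar a.1) (Ap.test_bar b.1), Tv_add a.1 b.1, inner_add_left,
      inner_add_right, d, e]
  · obtain ⟨w, p, a, b, d⟩ := sep hR hz
    refine ⟨Wt w p, (wdg_open _ _ _).mem_nhds b, fun f hf => ?_⟩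
    have k := h _ p (neg_ne_zero.2 a) d
    rw [Wt, neg_neg, ← j.dual _ _ _ (null_nv _) (null_nv _) (md_nvv a)] at k
    have := g.pr_Tv (Ap.in_hk va va (Ap.in_mono hf Set.inter_subset_left)) Z k
    rw [CK.bar_hk] at this
    exact this.symm

end

end Vale.Agent.P352X.ZZ.BPa
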