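import Vale.Agent.P352X.R.BP.B
import Vale.Agent.P352Z.R.BP.A
import Vale.Agent.P352Z.R.CONK.Norm

/-!
# P352Z, row BP: the uniform bound for the second moment
-/

set_option linter.all false

open MeasureTheory Filter Topology Set
open scoped SchwartzMap ComplexConjugate ContDiff

namespace Vale.Agent.P352X.ZZ.BPa

export Vale.Agent.P352X.BPa (dyadic fam ann wq smooth_wq)

open Vale.Agent.P352 Vale.Agent.P352.GF Vale.Agent.P352.BW Vale.Agent.P352.H246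
open Vale.Agent.P352.H496 Vale.Agent.P352.H755 Vale.Agent.P352X.Ap
open Vale.Agent.P352X.BX (Stp xi x2 tst_xi tst_x2)
open UniformSpace (Completion)

noncomputable section

variable {D : Type*} [NormedAddCommGroup D] [InnerProductSpace ℂ D] {c : Ctx D}
  {w w' v v' : Completion D} {O : Set V} {g g' u u' : P3 → ℝ} {ρ : ℝ → ℝ} {Λ Λ' κ : ℝ}

variable (c) in
/-- Lipschitz bounds for the null rotations that fix `b` -/
def Lp (v : Completion D) (Λ : ℝ) : Prop := ‖v‖ ≤ Λ ∧ ∀ s, ‖Gb c.Q s v - v‖ ≤ Λ * |s|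

lemma Lp.nonneg (h : Lp c v Λ) : 0 ≤ Λ := (norm_nonneg _).trans h.1

variable (c) in
/-- decay along the plane -/
def Tl (κ : ℝ) (F : ℝ → Completion D) : Prop := ∃ C, 0 ≤ C ∧ ∀ L, 1 ≤ L → ∀ w Λ, Lp c w Λ →
  ‖inner ℂ (F L) w‖ ≤ C * L ^ (-κ) * Λ

lemma Tl.add {F G : ℝ → Completion D} (h : Tl c κ F) (h' : Tl c κ G) :
    Tl c κ fun L => F L + G L := by
  obtain ⟨C, a, b⟩ := h
  obtain ⟨C', a', b'⟩ := h'
  refine ⟨C + C', add_nonneg a a', fun L hL w Λ hw => ?_⟩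
  rw [inner_add_left, add_mul, add_mul]
  exact (norm_add_le _ _).trans (add_le_add (b L hL w Λ hw) (b' L hL w Λ hw))

lemma Tl.congr {F G : ℝ → Completion D} (h : Tl c κ F) (e : ∀ L, 1 ≤ L → G L = F L) : Tl c κ G :=
  h.imp fun _ k => ⟨k.1, fun L hL => (e L hL).symm ▸ k.2 L hL⟩

theorem tail0 [Fact c.can] (t : T3 c) : ∃ κ, 0 < κ ∧ ∀ g ρ, Tst g → Tst ρ → ∀ (a : ℝ → ℝ) (A : ℝ), 0 ≤ A →
    (∀ L, 1 ≤ L → |a L| ≤ A * L) → Tl c κ fun L => TQ c va va (fun y => a L * kL g L y) ρ := by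
  obtain ⟨C, κ, hκ, h⟩ := t.bas.tail
  obtain ⟨C1, c1, hn⟩ := CK.norm_row c t
  refine ⟨κ, hκ, fun g ρ hg hρ a A hA ha => ?_⟩
  obtain ⟨-, h2, -⟩ := hn _ _ (dc_cx hg) (dc_cx hρ)
  set C0 := C1 * CK.n2 (CK.da (CK.da fun x => (g x : ℂ))) * ∫ t, ‖(ρ t : ℂ)‖ with hC0
  have c0 : 0 ≤ C0 := mul_nonneg (mul_nonneg c1 (Real.sqrt_nonneg _))
    (integral_nonneg fun _ => norm_nonneg _)
  set η := TQ c va va g ρ
  refine ⟨A * (|C| * 2 * (C0 + ‖η‖ + ‖gen (Pa c.Q) η‖)), by positivity, fun L hL w Λ hw => ?_⟩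
  have L0 : 0 < L := one_pos.trans_le hL
  have h3 := h η w Λ C0 L hL c0 (t.gen.ut va va va _ (test_pr hg hρ)).dm hw.2
    fun s hs => by
      simp only [η, TQ, pr_eq]
      exact h2 s hs.1
  rw [show Usc c.Q L 1 η = (L : ℂ) • TQ c va va (kL g L) ρ from Far.usc_Tv t.grp hg hρ L0,
    inner_smul_left, norm_mul, Complex.conj_ofReal, Complex.norm_real,
    Real.norm_of_nonneg L0.le] at h3
  beta_reduce
  rw [TP_mul_g _ (tst_kL hg L0) hρ, inner_smul_left, norm_mul, Complex.conj_ofReal,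
    Complex.norm_real, Real.norm_eq_abs]
  refine (mul_le_mul_of_nonneg_right (ha L hL) (norm_nonneg _)).trans ?_
  rw [mul_assoc, mul_assoc, mul_assoc]
  refine mul_le_mul_of_nonneg_left (h3.trans ?_) hA
  have := hw.nonneg
  have : 0 ≤ L ^ (-κ) := Real.rpow_nonneg L0.le _
  calc _ ≤ |C| * L ^ (-κ) * (Λ + Λ) * (C0 + ‖η‖ + ‖gen (Pa c.Q) η‖) := by
        gcongr
        exacts [le_abs_self C, hw.1]
    _ = _ := by ring

theorem tail [Fact c.can] (t : T3 c) : ∃ κ, 0 < κ ∧ ∀ g ρ y, Tst g → Tst ρ →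
    Tl c κ fun L => TQ c va va (fun q => wq y q * kL g L q) ρ := by
  obtain ⟨κ, hκ, h⟩ := tail0 t
  refine ⟨κ, hκ, fun g ρ y hg hρ => ?_⟩
  have hi := fun i => h _ ρ (tst_xi i hg) hρ (fun L => -2 * y i * Real.sqrt L) (2 * |y i|)
    (by positivity) fun L hL => by
      rw [abs_mul, abs_mul, abs_neg, abs_two, abs_of_nonneg (Real.sqrt_nonneg _)]
      exact mul_le_mul_of_nonneg_left (Real.sqrt_le_iff.2 ⟨by linarith, by nlinarith⟩)
        (by positivity)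
  refine ((((h _ ρ (tst_x2 hg) hρ id 1 zero_le_one fun L hL => by
    rw [id, one_mul, abs_of_nonneg (by linarith)]).add (hi 0)).add (hi 1)).add
    (h _ ρ hg hρ (fun _ => d2 y y) _ (d2_nonneg y) fun L hL => by
      rw [abs_of_nonneg (d2_nonneg y)]
      exact le_mul_of_one_le_right (d2_nonneg y) hL)).congr fun L hL => ?_
  have L0 : 0 < L := one_pos.trans_le hL
  have k := fun (a : ℝ) {g} (hg : Tst g) => cs_cmul a (tst_kL hg L0)
  rw [← TP_add_g (k _ (tst_x2 hg)) (k _ (tst_xi 0 hg)) hρ,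
    ← TP_add_g (cs_add (k _ (tst_x2 hg)) (k _ (tst_xi 0 hg))) (k _ (tst_xi 1 hg)) hρ,
    ← TP_add_g (cs_add (cs_add (k _ (tst_x2 hg)) (k _ (tst_xi 0 hg))) (k _ (tst_xi 1 hg)))
      (k _ hg) hρ]
  congr 1
  funext q
  have s0 := (Real.sqrt_pos.2 L0).ne'
  have s1 : L = Real.sqrt L * Real.sqrt L := (Real.mul_self_sqrt L0.le).symm
  simp only [wq, kL, x2, xi, d2, id, Pi.sub_apply, Pi.smul_apply, smul_eq_mul]
  generalize g _ = b
  generalize Real.sqrt L = s at s0 s1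
  rw [s1]
  field_simp
  ring

variable (c) in
/-- the form of `T_aa(g ρ)`, split by the step `u` -/
def Of (w w' : Completion D) (ρ : ℝ → ℝ) (u g : P3 → ℝ) : ℂ :=
  inner ℂ (TQ c va va (fun y => u y * g y) ρ) w + inner ℂ w' (TQ c va va (fun y => (1 - u y) * g y) ρ)

lemma Of_step (h : Com c w w' O) (hu : ContDiff ℝ ∞ u) (hu' : ContDiff ℝ ∞ u') (hg : Tst g)
    (hρ : Tst ρ) (k : In O (pr (fun y => (u y - u' y) * g y) ρ)) :
    Of c w w' ρ u g = Of c w w' ρ u' g := by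
  have e := h _ k
  have a := cs_mul_l (hu.sub hu') hg
  rw [bar_pr] at e
  rw [Of, Of, show (fun y => u y * g y) = fun y => u' y * g y + (u y - u' y) * g y from
    funext fun y => by ring, show (fun y => (1 - u y) * g y) =
      fun y => (1 - u' y) * g y - (u y - u' y) * g y from funext fun y => by ring,
    TP_add_g (cs_mul_l hu' hg) a hρ, TP_sub_g (cs_mul_l (contDiff_const.sub hu') hg) a hρ,
    inner_add_left, inner_sub_right, TQ, TQ, TQ, e]
  ring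

lemma Of_add (hu : ContDiff ℝ ∞ u) (hg : Tst g) (hg' : Tst g') (hρ : Tst ρ) :
    Of c w w' ρ u (fun y => g y + g' y) = Of c w w' ρ u g + Of c w w' ρ u g' := by
  simp only [Of, mul_add]
  rw [TP_add_g (cs_mul_l hu hg) (cs_mul_l hu hg') hρ, TP_add_g (cs_mul_l (contDiff_const.sub hu) hg)
    (cs_mul_l (contDiff_const.sub hu) hg') hρ, inner_add_left, inner_add_right]
  ring

theorem near (hu : ContDiff ℝ ∞ u) (hg : Tst g) (hρ : Tst ρ) {A : ℝ} (hA : 0 < A) :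
    ∃ M, 0 ≤ M ∧ ∀ t ∈ Icc A (2 * A), ‖TQ c va va (fun y => u y * kL g t y) ρ‖ ≤ M := by
  have s : Icc A (2 * A) ⊆ Ioi 0 := fun t ht => hA.trans_le ht.1
  obtain ⟨M, hM⟩ := isCompact_Icc.exists_bound_of_continuousOn
    ((TL c va va).continuous.comp_continuousOn ((fam hu hg hρ).continuousOn.mono s))
  refine ⟨|M|, abs_nonneg _, fun t ht => ?_⟩
  rw [TP_sch (cs_mul_l hu (tst_kL hg (s ht))) hρ]
  exact (hM t ht).trans (le_abs_self _)

/-- **the uniform bound** -/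
theorem ub [Fact c.can] (t : T3 c) {R d : ℝ} (hR : 0 < R) {χ : ℝ → ℝ} (hχ : Stp d χ) (hg : Cut g)
    (hρ : Tst ρ)
    (sρ : tsupport ρ ⊆ Icc (-R) R) (y : R2) : ∃ C A, 0 ≤ C ∧ ∀ w w' Λ, Lp c w Λ → Lp c w' Λ →
      Com c w w' (Fr R) → ∀ L, A ≤ L →
        ‖Of c w w' ρ (fun q => χ q.1) fun q => wq y q * kL g L q‖ ≤ C * Λ := by
  obtain ⟨κ, hκ, h⟩ := tail t
  have g1 : Tst fun q => kL g 2 q - g q := cs_sub (tst_kL hg.1 two_pos) hg.1
  obtain ⟨σ, A, s1, hA, hs⟩ := ann g1 (notMem_tsupport_iff_eventuallyEq.2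
    (((cut_kL hg two_pos).2.and hg.2).mono fun q k => by simp [k.1, k.2])) hR hχ hρ sρ
  have x1 : ContDiff ℝ ∞ fun q : P3 => χ q.1 := hχ.1.comp contDiff_fst
  obtain ⟨C1, c1, h1⟩ := h _ ρ y (cs_mul_l s1 g1) hρ
  obtain ⟨C2, c2, h2⟩ := h _ ρ y (cs_mul_l ((contDiff_const (c := (1 : ℝ))).sub s1) g1) hρ
  obtain ⟨M1, m1, n1⟩ := near (c := c) (x1.mul (smooth_wq y)) hg.1 hρ (one_pos.trans_le hA)
  obtain ⟨M2, m2, n2⟩ := near (c := c) (((contDiff_const (c := (1 : ℝ))).sub x1).mul (smooth_wq y))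
    hg.1 hρ (one_pos.trans_le hA)
  have q : 0 < 1 - (2 : ℝ) ^ (-κ) :=
    sub_pos.2 (Real.rpow_lt_one_of_one_lt_of_neg one_lt_two (neg_neg_of_pos hκ))
  refine ⟨M1 + M2 + (C1 + C2) / (1 - 2 ^ (-κ)), A, by positivity, fun w w' Λ a b e L hL => ?_⟩
  have Λ0 := a.nonneg
  refine (dyadic (f := fun L => ‖Of c w w' ρ (fun q => χ q.1) fun q => wq y q * kL g L q‖)
    (M := (M1 + M2) * Λ) (C := (C1 + C2) * Λ) hA (by positivity) hκ (fun s hs => ?_)
    (fun s hs' => ?_) L hL).trans_eq (by ring)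
  · have k1 := n1 s hs
    have k2 := n2 s hs
    simp only [mul_assoc] at k1 k2
    refine (norm_add_le _ _).trans ((add_le_add (norm_inner_le_norm _ _)
      (norm_inner_le_norm _ _)).trans ?_)
    nlinarith [mul_le_mul k1 a.1 (norm_nonneg _) m1, mul_le_mul b.1 k2 (norm_nonneg _) Λ0]
  · have s1' := hA.trans hs'
    have s0 := one_pos.trans_le s1'
    have k0 := cs_mul_l (smooth_wq y) (tst_kL g1 s0)
    have e1 : (fun q => wq y q * kL g (2 * s) q) = fun q => wq y q * kL g s q +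
        wq y q * kL (fun q => kL g 2 q - g q) s q := funext fun q => by
      rw [← kL_kL g zero_le_two]
      simp only [kL]
      ring
    simp only [e1]
    rw [Of_add x1 (cs_mul_l (smooth_wq y) (tst_kL hg.1 s0)) k0 hρ,
      Of_step e x1 (smooth_kL s1 s) k0 hρ (hs s hs' _ (smooth_wq y))]
    refine (norm_add_le _ _).trans (add_le_add le_rfl ((norm_add_le _ _).trans ?_))
    have k1 := h1 s s1' w Λ a
    have k2 := h2 s s1' w' Λ b
    rw [norm_inner_symm] at k2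
    simp only [mul_left_comm _ (wq y _)]
    exact (add_le_add k1 k2).trans_eq (by ring)

end

end Vale.Agent.P352X.ZZ.BPa
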