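import Vale.Agent.P352Z.R.BP.B
import Vale.Agent.P352Z.R.CONK.Smv
import Vale.Agent.P352Z.R.CONK.LWF
import Vale.Agent.P352Z.R.CONK.Uf

/-!
# P352Z, row BP: from bounded operators to fields
-/

set_option linter.all false

open MeasureTheory Filter Topology Set
open scoped SchwartzMap ComplexConjugate ContDiff

namespace Vale.Agent.P352X.ZZ.BPa

open Vale.Agent.P352 Vale.Agent.P352.GF Vale.Agent.P352.BW Vale.Agent.P352.H246
open Vale.Agent.P352.H496 Vale.Agent.P352.H755 Vale.Agent.P352X.Ap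
open Vale.Agent.P352X.BX (Stp xi x2 tst_xi tst_x2)
open Vale.Agent.P132 (jconj)
open UniformSpace (Completion)

noncomputable section

variable {D : Type*} [NormedAddCommGroup D] [InnerProductSpace ℂ D] {c : Ctx D}
  {w w' v v' : Completion D} {O : Set V} {g u : P3 → ℝ} {ρ χ : ℝ → ℝ} {Λ Λ' : ℝ}
  {X : Completion D →L[ℂ] Completion D}

lemma Lp.mono (h : Lp c v Λ) (e : Λ ≤ Λ') : Lp c v Λ' :=
  ⟨h.1.trans e, fun s => (h.2 s).trans (mul_le_mul_of_nonneg_right e (abs_nonneg s))⟩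

lemma Lp.add (h : Lp c v Λ) (h' : Lp c w Λ') : Lp c (v + w) (Λ + Λ') :=
  ⟨(norm_add_le _ _).trans (add_le_add h.1 h'.1), fun s => by
    rw [map_add, add_sub_add_comm, add_mul]
    exact (norm_add_le _ _).trans (add_le_add (h.2 s) (h'.2 s))⟩

lemma Lp.neg (h : Lp c v Λ) : Lp c (-v) Λ :=
  ⟨(norm_neg v).trans_le h.1, fun s => by
    rw [map_neg, ← neg_sub', norm_neg]
    exact h.2 s⟩

lemma Lp.of (G : GRP c) (h : CK.Lw c v Λ) : Lp c v Λ :=
  ⟨h.n0, fun s => (G.ugGb.lip h.dg.gn s).trans (mul_le_mul_of_nonneg_right h.ng (abs_nonneg s))⟩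

lemma J_Gb (G : GRP c) (j : JC c) (s : ℝ) (z : Completion D) :
    c.J (Gb c.Q s z) = Gb c.Q (-s) (c.J z) := by
  refine J_ug j (G.lgb _).1 jrL.map_zero (fun z => ?_) z
  rw [(G.lgb _).2, (G.lgb _).2]
  refine null_ext (by simp) ?_ (by simp)
  simp only [be_gbp, al_jr, be_jr, tx_jr]
  ring

lemma Lp.J (G : GRP c) (j : JC c) (h : Lp c v Λ) : Lp c (c.J v) Λ :=
  ⟨(c.J.norm_map v).trans_le h.1, fun s => by
    rw [← neg_neg s, ← J_Gb G j, ← map_sub, c.J.norm_map]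
    simpa only [abs_neg] using h.2 (-s)⟩

lemma Lp.op (G : GRP c) (hX : c.Good X) : ∃ C, 0 ≤ C ∧ ∀ v Λ, Lp c v Λ → Lp c (X v) (C * Λ) := by
  obtain ⟨Y, -, h⟩ := CK.Smv.good_der G (CK.Smv.dirG G) G.gb0 (fun _ => G.uni _ _ _) hX
  refine ⟨‖Y‖ + ‖X‖, by positivity, fun v Λ hv => ?_⟩
  obtain ⟨a, b⟩ := G.ugGb.dm_of_lip (K := Λ) (ψ := v) (.of_forall hv.2)
  have k1 := X.le_of_opNorm_le_of_le le_rfl hv.1
  have k2 := Y.le_of_opNorm_le_of_le le_rfl hv.1
  have k3 := X.le_of_opNorm_le_of_le le_rfl b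
  refine ⟨by nlinarith [norm_nonneg (Y v)], fun s => (G.ugGb.lip (h v a) s).trans
    (mul_le_mul_of_nonneg_right ((norm_add_le _ _).trans (by linarith)) (abs_nonneg s))⟩

/-- approximation of the leg by good operators -/
theorem apx (t : T3 c) {y : V} {r ε : ℝ} {f : Fn} (hf : In (dc y r) f) (hε : 0 < ε) :
    ∃ Y ∈ c.N (dc y r), c.Good Y ∧ Lp c (c.Th f - Y c.Om) ε ∧
      Lp c (c.Th (bar f) - star Y c.Om) ε := by
  obtain ⟨F0, rfl⟩ := hf.1
  have s := CK.smv_row c t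
  obtain ⟨m, C, C0, h⟩ := (CK.lwf_row c t).oneT
  have p : 0 < C + 1 := by positivity
  rw [Ev.Th_def, Ev.Th_def, ← Ev.barF_ad, ← Ev.evF_adS]
  have hF : Ev.InF (dc y r) (Ev.evF (Ev.adS va F0)) := by
    rw [Ev.evF_adS]
    exact Ev.in_ad va hf
  generalize Ev.adS va F0 = F at hF
  obtain ⟨F', Y, -, a, b, d⟩ := s.fld y r F m (ε / 2 / (C + 1)) hF (by positivity)
  obtain ⟨G, e, a2⟩ := CK.Uf.snF_bar m (F' - F)
  have a0 := Ev.snF_nonneg m (F' - F)
  have a1 : (C + 1) * Ev.snF m (F' - F) ≤ ε / 2 := ((lt_div_iff₀' p).1 a).le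
  have a3 := mul_le_mul_of_nonneg_left a2 C0
  obtain ⟨n, n1, n2⟩ := (((d c.Q.vac 2).1.eventually (gt_mem_nhds (half_pos hε))).and
    ((d c.Q.vac 2).2.eventually (gt_mem_nhds (half_pos hε)))).exists
  have k1 := (Lp.of t.grp (s.lw _ (s.sub _ _ (s.app _ _ (b n).2.1 s.vac) (t.gen.sm _))).1).mono
    n1.le
  have k2 := (Lp.of t.grp (s.lw _ (s.sub _ _ (s.app _ _ (s.adj _ (b n).2.1) s.vac)
    (t.gen.sm _))).1).mono n2.le
  have k3 := (Lp.of t.grp (h (F' - F))).mono (Λ' := ε / 2) (by nlinarith)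
  have k4 := (Lp.of t.grp (h G)).mono (Λ' := ε / 2) (by nlinarith)
  have e' : c.Tv (Ev.evF G) = c.Tv (Ev.barF (Ev.evF F')) - c.Tv (Ev.barF (Ev.evF F)) := by
    rw [e, sub_eq_add_neg (c.Tv _), ← neg_one_smul ℂ (c.Tv _),
      ← Ev.Tv_lin c (Ev.tt_evF F').bar (Ev.tt_evF F).bar]
    congr 1
    funext i j x
    simp [Ev.barF, Ev.evF, bar, ev, sub_eq_add_neg]
  rw [e'] at k4
  rw [Ev.Tv_sub] at k3
  refine ⟨Y n, (b n).1, (b n).2.1, ?_, ?_⟩
  · convert (k1.add k3).neg using 1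
    · exact (neg_sub _ _).symm.trans (congrArg _ (sub_add_sub_cancel _ _ _).symm)
    · ring
  · convert (k2.add k4).neg using 1
    · exact (neg_sub _ _).symm.trans (congrArg _ (sub_add_sub_cancel _ _ _).symm)
    · ring

lemma Of_vec (w w' v v' : Completion D) :
    Of c (w + v) (w' + v') ρ u g = Of c w w' ρ u g + Of c v v' ρ u g := by
  simp only [Of, inner_add_left, inner_add_right]
  ring

lemma Of_neg (w w' : Completion D) : Of c (-w) (-w') ρ u g = -Of c w w' ρ u g := by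
  simp only [Of, inner_neg_left, inner_neg_right, neg_add]

lemma om2_eq (w w' : Completion D) :
    c.om2 w w' χ (hk va va (pr g ρ)) = Of c w w' ρ (fun q => χ q.1) g := by
  rw [Ctx.om2, Of, TQ, TQ]
  congr 3 <;> funext m n z <;> simp [hk, pr, bar] <;> ring

/-- limits along approximations -/
theorem lim {F : ℝ → P3 → ℝ} {C A : ℝ} {ψ k : Completion D} (hC : 0 ≤ C)
    (h : ∀ w w' Λ, Lp c w Λ → Lp c w' Λ → Com c w w' O → ∀ L, A ≤ L →
      ‖Of c w w' ρ u (F L)‖ ≤ C * Λ)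
    (a : ∀ ε > 0, ∃ v v' φ, Com c v v' O ∧ Lp c (w - v) ε ∧ Lp c (w' - v') ε ∧ ‖ψ - φ‖ ≤ ε ∧
      Tendsto (fun L => Of c v v' ρ u (F L)) atTop (𝓝 (inner ℂ φ k))) :
    Tendsto (fun L => Of c w w' ρ u (F L)) atTop (𝓝 (inner ℂ ψ k)) := by
  have h0 : Com c w w' O := Com.lim fun ε hε =>
    let ⟨v, v', _, a1, a2, a3, _⟩ := a ε hε
    ⟨v, v', a1, a2.1, a3.1⟩
  refine Metric.tendsto_nhds.2 fun η hη => ?_
  have p : 0 < C + ‖k‖ + 1 := by positivity
  obtain ⟨v, v', φ, a1, a2, a3, a4, a5⟩ := a _ (div_pos hη p)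
  filter_upwards [eventually_ge_atTop A, Metric.tendsto_nhds.1 a5 _ (div_pos hη p)] with L b1 b2
  have b3 := h _ _ _ a2 a3 (h0.sub a1) L b1
  have b4 := (norm_inner_le_norm (𝕜 := ℂ) (ψ - φ) k).trans
    (mul_le_mul_of_nonneg_right a4 (norm_nonneg k))
  have e : Of c w w' ρ u (F L) - inner ℂ ψ k = Of c v v' ρ u (F L) - inner ℂ φ k +
      Of c (w - v) (w' - v') ρ u (F L) - inner ℂ (ψ - φ) k := by
    rw [inner_sub_left, sub_add_eq_add_sub, ← Of_vec, add_sub_cancel, add_sub_cancel]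
    ring
  rw [dist_eq_norm] at b2 ⊢
  rw [e, ← div_mul_cancel₀ η p.ne']
  refine ((norm_sub_le _ _).trans (add_le_add (norm_add_le _ _) le_rfl)).trans_lt ?_
  linarith

lemma Taa_add {f f' : Fn} (hf : IsTest f) (hf' : IsTest f') (v : D) :
    CK.Taa c (fun x => f x + f' x) v = CK.Taa c f v + CK.Taa c f' v := by
  have e : ∀ m n, c.T m n (fun x => f x + f' x) v = c.T m n f v + c.T m n f' v := fun m n => by
    simpa only [one_mul, one_smul] using
      c.Q.lin _ f f' 1 v (c.Q.bose_fld _ (c.hT.bose m n)) hf hf'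
  simp only [CK.Taa_eq hf, CK.Taa_eq hf', CK.Taa_eq (sw_add hf hf'), e, smul_add,
    Finset.sum_add_distrib]

/-- the field is moved to the right of the plane -/
theorem ident (t : T1 c) {u0 d0 : ℝ} {f : Fn} (hu : 0 < u0) (hd : 0 < d0)
    (hO : O ⊆ {z | be z < -u0 ∧ d0 < al z}) (hX : X ∈ c.N O)
    (hf : In {z | u0 < be z ∧ al z < -d0} f) (hχ : Stp d0 χ) (hg : Tst g) (hρ : Tst ρ)
    (sρ : tsupport ρ ⊆ Ioo (-u0) u0) :
    inner ℂ ((c.Tf (hk va va (pr g ρ)) (c.Thf (bar f) c.Q.vac) : D) : Completion D) (X c.Om) =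
      Of c (X (c.Th f)) (star X (c.Th (bar f))) ρ (fun q => χ q.1) g := by
  have x1 : ContDiff ℝ ∞ fun q : P3 => χ q.1 := hχ.1.comp contDiff_fst
  have g1 := cs_mul_l x1 hg
  have g2 := cs_mul_l ((contDiff_const (c := (1 : ℝ))).sub x1) hg
  have i1 : In {z | be z < u0 ∧ -d0 / 2 ≤ al z} (pr (fun q => χ q.1 * g q) ρ) :=
    Ap.in_pr g1 hρ fun z a b => ⟨(sρ b).2, tsupp_sub (K := {q : P3 | -d0 / 2 ≤ q.1})
      (isClosed_le continuous_const continuous_fst) (fun q k => by_contra fun k' =>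
        left_ne_zero_of_mul k (hχ.2.1 _ (lt_of_not_ge k').le)) a⟩
  have i2 : In {z | al z < d0 ∧ -u0 < be z} (pr (fun q => (1 - χ q.1) * g q) ρ) :=
    Ap.in_pr g2 hρ fun z a b => ⟨(show al z ≤ d0 / 2 from tsupp_sub (K := {q : P3 | q.1 ≤ d0 / 2})
      (isClosed_le continuous_fst continuous_const) (fun q k => by_contra fun k' =>
        left_ne_zero_of_mul k (by rw [hχ.2.2 _ (lt_of_not_ge k').le, sub_self])) a).trans_lt
      (half_lt_self hd), (sρ b).1⟩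
  have s : Sep (bar f) (pr (fun q => χ q.1 * g q) ρ) := fun x hx y hy => by
    obtain ⟨a1, a2⟩ := (Ap.in_bar hf).2.2 hx
    obtain ⟨b1, b2⟩ := i1.2.2 hy
    change GF.mdot (x - y) (x - y) < 0
    rw [mdot_null, al_sub, be_sub]
    nlinarith [d2_nonneg (tx (x - y))]
  have e : pr g ρ = fun x => pr (fun q => χ q.1 * g q) ρ x + pr (fun q => (1 - χ q.1) * g q) ρ x :=
    funext fun x => by
      simp only [pr]
      push_cast
      ring
  have h1 := (CK.op_wdg t (CK.Taa c (pr (fun q => χ q.1 * g q) ρ) c.Q.vac) c.Q.vac hO hX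
    (Ap.in_mono hf fun z a => ⟨by linarith [a.2], by linarith [a.1]⟩)).1
  have h2 := (CK.op_wdg t (c.Thf (bar f) c.Q.vac) c.Q.vac hO hX i2).2
  rw [(CK.com_sep (Ap.test_bar hf.1) i1.1 s _).2] at h1
  rw [bar_pr] at h2
  change inner ℂ ((CK.Taa c _ _ : D) : Completion D) _ = _
  rw [e, Taa_add i1.1 i2.1, Completion.coe_add, inner_add_left]
  exact congrArg₂ _ h1 (h2.trans (star_inner _ _ _).symm)

end

end Vale.Agent.P352X.ZZ.BPa
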